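import Mathlib.Algebra.MonoidAlgebra.Basic
import Mathlib.Algebra.MonoidAlgebra.MapDomain
import Mathlib.Data.Matrix.Mul
import Mathlib.Data.ZMod.Basic
import Mathlib.Algebra.Field.ZMod
import Mathlib.Tactic

/-!
# Matrix units from a one-sided inverse
-/

namespace Vale.Agent.P201.H962

universe u v

section units

variable {A : Type*} [Ring A] {a b : A}

/-- the matrix units -/
def mu (a b : A) (i j : ℕ) : A := b ^ i * (1 - b * a) * a ^ j

theorem a_mul (hab : a * b = 1) : a * (1 - b * a) = 0 := by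
  rw [mul_sub, mul_one, ← mul_assoc, hab, one_mul, sub_self]

theorem mul_b (hab : a * b = 1) : (1 - b * a) * b = 0 := by
  rw [sub_mul, one_mul, mul_assoc, hab, mul_one, sub_self]

theorem idem (hab : a * b = 1) : (1 - b * a) * (1 - b * a) = 1 - b * a := by
  rw [mul_sub, mul_one, ← mul_assoc, mul_b hab, zero_mul, sub_zero]

theorem pow_pow_one (hab : a * b = 1) (i : ℕ) : a ^ i * b ^ i = 1 := by
  induction i with
  | zero => simp
  | succ i ih =>
    rw [pow_succ, pow_succ', mul_assoc, ← mul_assoc a, hab, one_mul, ih]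

theorem mu_mul_same (hab : a * b = 1) (i j k : ℕ) : mu a b i j * mu a b j k = mu a b i k := by
  unfold mu
  calc b ^ i * (1 - b * a) * a ^ j * (b ^ j * (1 - b * a) * a ^ k)
      = b ^ i * (1 - b * a) * (a ^ j * b ^ j) * (1 - b * a) * a ^ k := by simp only [mul_assoc]
    _ = b ^ i * ((1 - b * a) * (1 - b * a)) * a ^ k := by
        rw [pow_pow_one hab, mul_one]; simp only [mul_assoc]
    _ = _ := by rw [idem hab]

theorem mu_mul_ne (hab : a * b = 1) (i l : ℕ) {j k : ℕ} (h : j ≠ k) :
    mu a b i j * mu a b k l = 0 := by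
  unfold mu
  have key : (1 - b * a) * a ^ j * (b ^ k * (1 - b * a)) = 0 := by
    rcases lt_or_gt_of_ne h with h | h
    · obtain ⟨d, rfl⟩ := Nat.exists_eq_add_of_lt h
      have : a ^ j * b ^ (j + d + 1) = b ^ (d + 1) := by
        rw [add_assoc, pow_add, ← mul_assoc, pow_pow_one hab, one_mul]
      calc (1 - b * a) * a ^ j * (b ^ (j + d + 1) * (1 - b * a))
          = (1 - b * a) * (a ^ j * b ^ (j + d + 1)) * (1 - b * a) := by simp only [mul_assoc]
        _ = ((1 - b * a) * b) * b ^ d * (1 - b * a) := by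
            rw [this, pow_succ']; simp only [mul_assoc]
        _ = 0 := by rw [mul_b hab, zero_mul, zero_mul]
    · obtain ⟨d, rfl⟩ := Nat.exists_eq_add_of_lt h
      have : a ^ (k + d + 1) * b ^ k = a ^ (d + 1) := by
        rw [add_assoc, add_comm, pow_add, mul_assoc, pow_pow_one hab, mul_one]
      calc (1 - b * a) * a ^ (k + d + 1) * (b ^ k * (1 - b * a))
          = (1 - b * a) * (a ^ (k + d + 1) * b ^ k) * (1 - b * a) := by simp only [mul_assoc]
        _ = (1 - b * a) * a ^ d * (a * (1 - b * a)) := by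
            rw [this, pow_succ]; simp only [mul_assoc]
        _ = 0 := by rw [a_mul hab, mul_zero]
  calc b ^ i * (1 - b * a) * a ^ j * (b ^ k * (1 - b * a) * a ^ l)
      = b ^ i * ((1 - b * a) * a ^ j * (b ^ k * (1 - b * a))) * a ^ l := by
        simp only [mul_assoc]
    _ = 0 := by rw [key, mul_zero, zero_mul]

theorem mu_ne (hab : a * b = 1) (hba : b * a ≠ 1) (i j : ℕ) : mu a b i j ≠ 0 := by
  intro h
  apply hba
  have h2 : a ^ i * mu a b i j * b ^ j = 1 - b * a := by
    unfold mu
    calc a ^ i * (b ^ i * (1 - b * a) * a ^ j) * b ^ j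
        = (a ^ i * b ^ i) * (1 - b * a) * (a ^ j * b ^ j) := by simp only [mul_assoc]
      _ = _ := by rw [pow_pow_one hab, pow_pow_one hab, one_mul, mul_one]
  rw [h, mul_zero, zero_mul] at h2
  exact (sub_eq_zero.1 h2.symm).symm

end units

section embed

variable {K B : Type*} [Ring K] [Ring B] (c : K →+* B) (E : ℕ → ℕ → B)
  (h1 : ∀ i j k, E i j * E j k = E i k) (h2 : ∀ i j k l, j ≠ k → E i j * E k l = 0)
  (h3 : ∀ k i j, c k * E i j = E i j * c k) (h4 : ∀ k, c k * E 0 0 = 0 → k = 0)

/-- the embedding of matrices given by matrix units -/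
def emb (n : ℕ) (M : Matrix (Fin n) (Fin n) K) : B := ∑ i, ∑ j, c (M i j) * E i j

include h1 h2 h3 in
theorem emb_mul (n : ℕ) (M N : Matrix (Fin n) (Fin n) K) :
    emb c E n (M * N) = emb c E n M * emb c E n N := by
  unfold emb
  rw [Finset.sum_mul]
  refine Finset.sum_congr rfl fun i _ => ?_
  rw [Finset.sum_mul]
  have : ∀ j : Fin n, c (M i j) * E i j * (∑ k, ∑ l, c (N k l) * E k l) =
      ∑ l, c (M i j * N j l) * E i l := by
    intro j
    rw [Finset.mul_sum, Finset.sum_eq_single j]
    · rw [Finset.mul_sum]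
      refine Finset.sum_congr rfl fun l _ => ?_
      rw [mul_assoc, ← mul_assoc (E _ _), ← h3, mul_assoc (c (N j l)), h1, ← mul_assoc, map_mul]
    · intro k _ hk
      rw [Finset.mul_sum]
      refine Finset.sum_eq_zero fun l _ => ?_
      rw [mul_assoc, ← mul_assoc (E _ _), ← h3, mul_assoc (c (N k l)),
        h2 _ _ _ _ (fun h => hk (Fin.ext h.symm)), mul_zero, mul_zero]
    · intro h
      exact absurd (Finset.mem_univ j) h
  simp only [this]
  rw [Finset.sum_comm]
  refine Finset.sum_congr rfl fun l _ => ?_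
  rw [Matrix.mul_apply, map_sum, Finset.sum_mul]

theorem emb_zero (n : ℕ) : emb c E n 0 = 0 := by
  simp [emb]

theorem emb_add (n : ℕ) (M N : Matrix (Fin n) (Fin n) K) :
    emb c E n (M + N) = emb c E n M + emb c E n N := by
  simp [emb, add_mul, Finset.sum_add_distrib]

/-- the embedding as a homomorphism of rings without unit -/
def embHom (n : ℕ) : Matrix (Fin n) (Fin n) K →ₙ+* B where
  toFun := emb c E n
  map_mul' := emb_mul c E h1 h2 h3 n
  map_zero' := emb_zero c E n
  map_add' := emb_add c E n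

include h1 h2 h3 h4 in
theorem emb_inj (n : ℕ) : Function.Injective (embHom c E h1 h2 h3 n) := by
  rw [injective_iff_map_eq_zero]
  intro M hM
  ext p q
  apply h4
  have hM' : emb c E n M = 0 := hM
  have key : E 0 p * emb c E n M * E q 0 = c (M p q) * E 0 0 := by
    unfold emb
    rw [Finset.mul_sum, Finset.sum_mul, Finset.sum_eq_single p]
    · rw [Finset.mul_sum, Finset.sum_mul, Finset.sum_eq_single q]
      · rw [← mul_assoc, ← h3, mul_assoc (c _), h1, mul_assoc (c _), h1]
      · intro k _ hk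
        rw [← mul_assoc, ← h3, mul_assoc (c _), mul_assoc (c _), h1,
          h2 _ _ _ _ (fun h => hk (Fin.ext h)), mul_zero]
      · intro h
        exact absurd (Finset.mem_univ q) h
    · intro k _ hk
      rw [Finset.mul_sum, Finset.sum_mul]
      refine Finset.sum_eq_zero fun l _ => ?_
      rw [← mul_assoc, ← h3, mul_assoc (c _), h2 _ _ _ _ (fun h => hk (Fin.ext h.symm)), mul_zero,
        zero_mul]
    · intro h
      exact absurd (Finset.mem_univ p) h
  rw [← key, hM', mul_zero, zero_mul]

end embed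

section bc

variable (K : Type u) [Ring K] [Nontrivial K] [CharP K 2] (H : Type v) [Group H]

/-- `F_2[H] → K[H]` -/
noncomputable def f2 : MonoidAlgebra (ZMod 2) H →+* MonoidAlgebra K H :=
  MonoidAlgebra.mapRingHom H (ZMod.castHom (dvd_refl 2) K)

omit [Nontrivial K] in
theorem f2_coeff (x : MonoidAlgebra (ZMod 2) H) (g : H) :
    (f2 K H x).coeff g = ZMod.castHom (dvd_refl 2) K (x.coeff g) := by
  simp only [f2, MonoidAlgebra.coeff_mapRingHom]

theorem z2 (z : ZMod 2) : z = 0 ∨ z = 1 := by
  revert z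
  decide

theorem f2_comm (k : K) (x : MonoidAlgebra (ZMod 2) H) :
    (MonoidAlgebra.singleOneRingHom : K →+* MonoidAlgebra K H) k * f2 K H x =
      f2 K H x * (MonoidAlgebra.singleOneRingHom : K →+* MonoidAlgebra K H) k := by
  apply MonoidAlgebra.coeff_injective
  ext g
  change (MonoidAlgebra.single 1 k * f2 K H x).coeff g =
    (f2 K H x * MonoidAlgebra.single 1 k).coeff g
  rw [MonoidAlgebra.coeff_single_one_mul, MonoidAlgebra.coeff_mul_single_one, f2_coeff]
  rcases z2 (x.coeff g) with h | h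
  · rw [h, map_zero, mul_zero, zero_mul]
  · rw [h, map_one, mul_one, one_mul]

theorem f2_faith (k : K) (x : MonoidAlgebra (ZMod 2) H) (hx : x ≠ 0)
    (h : (MonoidAlgebra.singleOneRingHom : K →+* MonoidAlgebra K H) k * f2 K H x = 0) : k = 0 := by
  obtain ⟨g, hg⟩ : ∃ g, x.coeff g ≠ 0 := by
    by_contra hn
    push Not at hn
    exact hx (MonoidAlgebra.coeff_injective (Finsupp.ext hn))
  have hg1 : x.coeff g = 1 := (z2 _).resolve_left hg
  have h2 : (MonoidAlgebra.single 1 k * f2 K H x).coeff g = (0 : MonoidAlgebra K H).coeff g :=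
    congrArg (fun z => MonoidAlgebra.coeff z g) h
  rw [MonoidAlgebra.coeff_single_one_mul, f2_coeff, hg1, map_one, mul_one] at h2
  exact h2

end bc

/-- if `F_2[G]` is not directly finite, matrices over every nontrivial ring `K` of characteristic
`2` embed in `K[H]`, for every group `H` containing `G` -/
theorem exists_emb {G : Type*} [Group G] {a b : MonoidAlgebra (ZMod 2) G} (hab : a * b = 1)
    (hba : b * a ≠ 1) (K : Type u) [Ring K] [Nontrivial K] [CharP K 2] (H : Type v) [Group H]
    (i : G →* H) (hi : Function.Injective i) (n : ℕ) :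
    ∃ f : Matrix (Fin n) (Fin n) K →ₙ+* MonoidAlgebra K H, Function.Injective f := by
  let f1 : MonoidAlgebra (ZMod 2) G →+* MonoidAlgebra (ZMod 2) H :=
    MonoidAlgebra.mapDomainRingHom (ZMod 2) i
  have hf1 : Function.Injective f1 := MonoidAlgebra.mapDomain_injective hi
  have ha : f1 a * f1 b = 1 := by rw [← map_mul, hab, map_one]
  have hb : f1 b * f1 a ≠ 1 := fun h => hba (hf1 (by rw [map_mul, map_one, h]))
  let c : K →+* MonoidAlgebra K H := MonoidAlgebra.singleOneRingHom
  let E : ℕ → ℕ → MonoidAlgebra K H := fun i j => f2 K H (mu (f1 a) (f1 b) i j)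
  have h1 : ∀ i j k, E i j * E j k = E i k := fun i j k => by
    change f2 K H _ * f2 K H _ = f2 K H _
    rw [← map_mul, mu_mul_same ha]
  have h2 : ∀ i j k l, j ≠ k → E i j * E k l = 0 := fun i j k l h => by
    change f2 K H _ * f2 K H _ = 0
    rw [← map_mul, mu_mul_ne ha _ _ h, map_zero]
  have h3 : ∀ k i j, c k * E i j = E i j * c k := fun k i j => f2_comm K H k _
  have h4 : ∀ k, c k * E 0 0 = 0 → k = 0 := fun k h => f2_faith K H k _ (mu_ne ha hb 0 0) h
  exact ⟨embHom c E h1 h2 h3 n, emb_inj c E h1 h2 h3 h4 n⟩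

end Vale.Agent.P201.H962
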